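import Vale.Agent.P271.H43.Sorted

/-!
# P271 / (6): the concentrated functional is large, the uniform one is small

`κc N M i = 1` for `N - M ≤ i`, i.e. `S (κc N M) F` = sum of the `M` smallest jumps.
-/

set_option linter.all false

namespace Vale.Agent.P271.H965

open Module Finset Vale.Agent.P271.Filt Vale.Agent.P271.Filt.Wt Vale.Agent.P271.Chain
  Vale.Agent.P271.H43

variable {K : Type*} {V : Type*} [Field K] [AddCommGroup V] [Module K V] [FiniteDimensional K V]

/-- indicator of the `M` last indices (the `M` smallest jumps) -/
def κc (N M : ℕ) : Fin N → ℝ := fun i => if N - M ≤ (i : ℕ) then 1 else 0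

theorem κc_nonneg (N M : ℕ) (i : Fin N) : 0 ≤ κc N M i := by
  unfold κc; split_ifs <;> norm_num

theorem monotone_κc (N M : ℕ) : Monotone (κc N M) := by
  intro i j hij
  unfold κc
  have h : (i : ℕ) ≤ j := hij
  split_ifs with h1 h2
  · exact le_rfl
  · omega
  · norm_num
  · exact le_rfl

/-- a weight below which the filtration has large steps: `F.sub (F.w (b i))` has dimension `> i` -/
theorem lt_finrank_sub {F : Wt K V} {b : Basis (Fin (finrank K V)) K V}
    (hanti : Antitone fun i => F.w (b i)) (i : Fin (finrank K V)) :
    (i : ℕ) < finrank K (F.sub (F.w (b i))) := by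
  classical
  have hli : LinearIndependent K (fun j : {j : Fin (finrank K V) // j ≤ i} => b j) :=
    b.linearIndependent.comp _ Subtype.val_injective
  have hmem : ∀ j : {j : Fin (finrank K V) // j ≤ i}, b j ∈ F.sub (F.w (b i)) := by
    intro j _
    exact hanti j.2
  have hli2 : LinearIndependent K
      (fun j : {j : Fin (finrank K V) // j ≤ i} => (⟨b j, hmem j⟩ : F.sub (F.w (b i)))) := by
    apply LinearIndependent.of_comp (F.sub (F.w (b i))).subtype
    exact hli
  have h1 := hli2.fintype_card_le_finrank
  have h2 : Fintype.card {j : Fin (finrank K V) // j ≤ i} = i + 1 := by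
    rw [Fintype.card_subtype]
    have : (Finset.univ.filter (fun j : Fin (finrank K V) => j ≤ i)) = Finset.Iic i := by
      ext j; simp
    rw [this, Fin.card_Iic]
  omega

/-- **[CONC]**: if all vectors outside `J` (of codimension at least `M`) have weight at most `C`,
then the sum of the `M` smallest jumps is at most `M * C`. -/
theorem conc {F : Wt K V} {J : Submodule K V} {M : ℕ} {C : ℝ}
    (hJ : finrank K J + M ≤ finrank K V) (h : ∀ x, x ∉ J → F.w x ≤ C) :
    S (κc (finrank K V) M) F ≤ M * C := by
  classical
  rcases Nat.eq_zero_or_pos M with h0 | h0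
  · subst h0
    rw [S]
    have : ∀ i : Fin (finrank K V), κc (finrank K V) 0 i * F.w (antib F i) = 0 := by
      intro i
      have : κc (finrank K V) 0 i = 0 := by
        unfold κc
        rw [if_neg]
        have := i.2
        omega
      rw [this, zero_mul]
    rw [Finset.sum_congr rfl fun i _ => this i]
    simp
  · have hN : finrank K V - M < finrank K V := by omega
    set i0 : Fin (finrank K V) := ⟨finrank K V - M, hN⟩ with hi0
    have h1 := lt_finrank_sub (antitone_antib F) i0
    -- a vector of weight `≥ w_{i0}` outside `J`
    have h2 : ¬ F.sub (F.w (antib F i0)) ≤ J := by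
      intro hle
      have := Submodule.finrank_mono hle
      simp only [hi0] at h1 this
      omega
    obtain ⟨x, hx, hxJ⟩ := Set.not_subset.1 h2
    have hx0 : x ≠ 0 := by
      rintro rfl
      exact hxJ (Submodule.zero_mem _)
    have h3 : F.w (antib F i0) ≤ C := ((F.mem_sub_of_ne hx0).1 hx).trans (h x hxJ)
    have h4 : ∀ i : Fin (finrank K V), κc (finrank K V) M i * F.w (antib F i) ≤
        κc (finrank K V) M i * C := by
      intro i
      unfold κc
      split_ifs with hi
      · rw [one_mul, one_mul]
        exact (antitone_antib F (show i0 ≤ i from hi)).trans h3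
      · simp
    have h5 : ∑ i : Fin (finrank K V), κc (finrank K V) M i = M := by
      unfold κc
      rw [Finset.sum_boole]
      have h6 : (Finset.univ.filter (fun i : Fin (finrank K V) => finrank K V - M ≤ (i : ℕ))) =
          Finset.Ici i0 := by
        ext i
        simp only [Finset.mem_filter, Finset.mem_univ, true_and, Finset.mem_Ici]
        exact Iff.rfl
      rw [h6, Fin.card_Ici]
      simp only [hi0]
      congr 1
      omega
    calc S (κc (finrank K V) M) F ≤ ∑ i : Fin (finrank K V), κc (finrank K V) M i * C :=
          Finset.sum_le_sum fun i _ => h4 i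
      _ = M * C := by rw [← Finset.sum_mul, h5]

end Vale.Agent.P271.H965
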