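import Vale.Agent.P271.H84.DerC
import Vale.Agent.P271.H879.Cone

/-!
# P271 / H965: (P3c) the chain rule in an arbitrary analytic chart of a graded cone
-/

set_option linter.all false

open Filter Topology Metric

namespace Vale.Agent.P271.H965

open Vale.Agent.P271.Sch Vale.Agent.P271.H741 Vale.Agent.P271.H84

variable {R : Type} [CommRing R] [Algebra ℂ R]

theorem chart_t_zero {φ : R →ₐ[ℂ] ℂ} {m : ℕ} (c : Chart φ m) (j : Fin m) : φ (c.t j) = 0 := by
  have h := c.coord 0 (mem_ball_self c.ρ_pos) j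
  rw [c.zero] at h
  simpa using h

theorem fderiv_mul_chart {φ : R →ₐ[ℂ] ℂ} {m : ℕ} (c : Chart φ m) (a b : R)
    (v : Fin m → ℂ) :
    fderiv ℂ (fun x => c.ψ x (a * b)) 0 v =
      φ a * fderiv ℂ (fun x => c.ψ x b) 0 v + φ b * fderiv ℂ (fun x => c.ψ x a) 0 v := by
  have hd : ∀ s : R, DifferentiableAt ℂ (fun x => c.ψ x s) 0 := fun s =>
    (c.holo s 0 (mem_ball_self c.ρ_pos)).differentiableAt
  have h1 : (fun x => c.ψ x (a * b)) = fun x => c.ψ x a * c.ψ x b := by
    funext y; exact map_mul _ _ _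
  rw [h1, fderiv_fun_mul (hd a) (hd b)]
  rw [_root_.add_apply, _root_.smul_apply, _root_.smul_apply, smul_eq_mul, smul_eq_mul, c.zero]

theorem fderiv_sum_chart {φ : R →ₐ[ℂ] ℂ} {m : ℕ} (c : Chart φ m) {ι : Type*} (s : Finset ι)
    (f : ι → R) (v : Fin m → ℂ) :
    fderiv ℂ (fun x => c.ψ x (∑ i ∈ s, f i)) 0 v =
      ∑ i ∈ s, fderiv ℂ (fun x => c.ψ x (f i)) 0 v := by
  have hd : ∀ s : R, DifferentiableAt ℂ (fun x => c.ψ x s) 0 := fun s =>
    (c.holo s 0 (mem_ball_self c.ρ_pos)).differentiableAt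
  have h1 : (fun x => c.ψ x (∑ i ∈ s, f i)) = fun x => ∑ i ∈ s, c.ψ x (f i) := by
    funext y; exact map_sum _ _ _
  rw [h1, fderiv_fun_sum (fun i _ => hd (f i))]
  simp

theorem fderiv_t_chart {φ : R →ₐ[ℂ] ℂ} {m : ℕ} (c : Chart φ m) (j k : Fin m) :
    fderiv ℂ (fun x => c.ψ x (c.t j)) 0 (Pi.single k 1) = if k = j then 1 else 0 := by
  have h1 : (fun x => c.ψ x (c.t j)) =ᶠ[𝓝 0] fun x => x j := by
    filter_upwards [isOpen_ball.mem_nhds (mem_ball_self c.ρ_pos)] with y hy using c.coord y hy j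
  rw [h1.fderiv_eq]
  have h2 : HasFDerivAt (fun x : Fin m → ℂ => x j)
      (ContinuousLinearMap.proj (R := ℂ) (φ := fun _ : Fin m => ℂ) j) 0 :=
    (ContinuousLinearMap.proj (R := ℂ) (φ := fun _ : Fin m => ℂ) j).hasFDerivAt
  rw [h2.fderiv]
  simp [Pi.single_apply, eq_comm]

/-- The coordinates of a chart generate the maximal ideal as soon as `m` elements do. -/
theorem chart_gen {φ : R →ₐ[ℂ] ℂ} {m : ℕ} (c : Chart φ m) {x : Fin m → R}
    (hx : ∀ i, φ (x i) = 0)
    (hgen : ∀ r, φ r = 0 → ∃ s, φ s ≠ 0 ∧ s * r ∈ Ideal.span (Set.range x)) :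
    ∀ r, φ r = 0 → ∃ s, φ s ≠ 0 ∧ s * r ∈ Ideal.span (Set.range c.t) := by
  classical
  choose s hs hmem using fun j => hgen (c.t j) (chart_t_zero c j)
  have hmem' : ∀ j, ∃ a : Fin m → R, ∑ i, a i * x i = s j * c.t j := by
    intro j
    obtain ⟨a, ha⟩ := Ideal.mem_span_range_iff_exists_fun.1 (hmem j)
    exact ⟨a, ha⟩
  choose a ha using hmem'
  -- matrices
  set A : Matrix (Fin m) (Fin m) R := Matrix.of a with hA
  set J : Matrix (Fin m) (Fin m) ℂ :=
    Matrix.of fun i k => fderiv ℂ (fun y => c.ψ y (x i)) 0 (Pi.single k 1) with hJ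
  have hrel : (A.map φ) * J = Matrix.diagonal (fun j => φ (s j)) := by
    ext j k
    rw [Matrix.mul_apply, Matrix.diagonal_apply]
    have h1 : fderiv ℂ (fun y => c.ψ y (∑ i, a j i * x i)) 0 (Pi.single k 1) =
        fderiv ℂ (fun y => c.ψ y (s j * c.t j)) 0 (Pi.single k 1) := by rw [ha j]
    rw [fderiv_sum_chart, fderiv_mul_chart, chart_t_zero, zero_mul, add_zero,
      fderiv_t_chart] at h1
    have h2 : ∀ i ∈ Finset.univ, fderiv ℂ (fun y => c.ψ y (a j i * x i)) 0 (Pi.single k 1) =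
        φ (a j i) * J i k := by
      intro i _
      rw [fderiv_mul_chart, hx i, zero_mul, add_zero]
      rfl
    rw [Finset.sum_congr rfl h2] at h1
    have h3 : ∑ i, (A.map φ) j i * J i k = ∑ i, φ (a j i) * J i k := rfl
    rw [h3, h1]
    by_cases hkj : k = j
    · subst hkj; simp
    · rw [if_neg hkj, if_neg (fun h => hkj h.symm), mul_zero]
  have hdet : φ A.det ≠ 0 := by
    have h1 := congrArg Matrix.det hrel
    rw [Matrix.det_mul, Matrix.det_diagonal] at h1
    have h2 : (A.map φ).det = φ A.det := by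
      have := (RingHom.map_det (φ : R →+* ℂ) A)
      rw [RingHom.mapMatrix_apply] at this
      exact this.symm
    intro h0
    rw [h2, h0, zero_mul] at h1
    exact (Finset.prod_ne_zero_iff.2 fun j _ => hs j) h1.symm
  have hxt : ∀ i, A.det * x i ∈ Ideal.span (Set.range c.t) := by
    intro i
    have h1 : A.adjugate.mulVec (A.mulVec x) = A.det • x := by
      rw [Matrix.mulVec_mulVec, Matrix.adjugate_mul, Matrix.smul_mulVec, Matrix.one_mulVec]
    have h2 := congrFun h1 i
    rw [Pi.smul_apply, smul_eq_mul] at h2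
    rw [← h2]
    show ∑ j, A.adjugate i j * (A.mulVec x) j ∈ _
    refine Ideal.sum_mem _ fun j _ => Ideal.mul_mem_left _ _ ?_
    have h3 : (A.mulVec x) j = s j * c.t j := by
      rw [← ha j]; rfl
    rw [h3]
    exact Ideal.mul_mem_left _ _ (Ideal.subset_span ⟨j, rfl⟩)
  intro r hr
  obtain ⟨u, hu, hur⟩ := hgen r hr
  refine ⟨A.det * u, by rw [map_mul]; exact mul_ne_zero hdet hu, ?_⟩
  obtain ⟨b, hb⟩ := Ideal.mem_span_range_iff_exists_fun.1 hur
  rw [mul_assoc, ← hb, Finset.mul_sum]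
  refine Ideal.sum_mem _ fun i _ => ?_
  have : A.det * (b i * x i) = b i * (A.det * x i) := by ring
  rw [this]
  exact Ideal.mul_mem_left _ _ (hxt i)

section cone

variable {n : ℕ} {C : GCone n}

/-- The coordinates of any chart at a point of the cone are regular parameters. -/
theorem cone_chart_gen {φ : C.Pt} (hφ : GCone.NV φ) (c : Chart φ (n + 1)) :
    ∀ r, φ r = 0 → ∃ s, φ s ≠ 0 ∧ s * r ∈ Ideal.span (Set.range c.t) := by
  obtain ⟨x, hx, hgen⟩ := H879.cone_exists_parameters hφ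
  exact chart_gen c hx hgen

/-- **(P3c)** chain rule, derivations of `R`, on the whole chart. -/
theorem chain_rule_R {φ : C.Pt} (hφ : GCone.NV φ) (c : Chart φ (n + 1))
    (D : Derivation ℂ C.R C.R) (r : C.R) {x : Fin (n + 1) → ℂ} (hx : x ∈ ball 0 c.ρ) :
    c.ψ x (D r) = ∑ k, c.ψ x (D (c.t k)) * fderiv ℂ (fun y => c.ψ y r) x (Pi.single k 1) := by
  haveI := C.finiteType
  refine H84.chain_rule (φ := φ) (X := c.t) ?_ c.ρ_pos c.zero c.holo ?_ D r hx
  · intro s hs
    obtain ⟨h, hh, hmem⟩ := cone_chart_gen hφ c s hs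
    refine ⟨h, hh, ?_⟩
    have : (fun j => c.t j - algebraMap ℂ C.R (φ (c.t j))) = c.t := by
      funext j
      rw [chart_t_zero, map_zero, sub_zero]
    rw [this]
    exact hmem
  · intro y hy j
    rw [c.coord y hy j, chart_t_zero, zero_add]

/-- the derivation of `R` induced by a derivation of `K` preserving `R` -/
theorem exists_restrict (D : Derivation ℂ C.K C.K)
    (hD : ∀ r : C.R, ∃ s : C.R, D (algebraMap C.R C.K r) = algebraMap C.R C.K s) :
    ∃ D' : Derivation ℂ C.R C.R, ∀ r, D (algebraMap C.R C.K r) = algebraMap C.R C.K (D' r) := by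
  choose f hf using hD
  have hinj : Function.Injective (algebraMap C.R C.K) := IsFractionRing.injective C.R C.K
  refine ⟨Derivation.mk' ⟨⟨f, ?_⟩, ?_⟩ ?_, fun r => hf r⟩
  · intro a b
    apply hinj
    rw [← hf, map_add, map_add, map_add, hf, hf]
  · intro c a
    apply hinj
    show algebraMap C.R C.K (f (c • a)) = algebraMap C.R C.K (c • f a)
    have h1 : ∀ r : C.R, algebraMap C.R C.K (c • r) = c • algebraMap C.R C.K r := fun r => by
      rw [Algebra.smul_def, map_mul, ← IsScalarTower.algebraMap_apply, ← Algebra.smul_def]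
    rw [← hf, h1, h1, Derivation.map_smul, hf]
  · intro a b
    apply hinj
    show algebraMap C.R C.K (f (a * b)) = algebraMap C.R C.K (a • f b + b • f a)
    rw [← hf, map_mul, Derivation.leibniz, smul_eq_mul, smul_eq_mul, hf, hf, smul_eq_mul,
      smul_eq_mul, map_add, map_mul, map_mul]

/-- **(P3c)** chain rule, derivations of `K` which preserve `R`. -/
theorem chain_rule_K {φ : C.Pt} (hφ : GCone.NV φ) (c : Chart φ (n + 1))
    (D : Derivation ℂ C.K C.K) (D' : C.R → C.R)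
    (hD : ∀ r : C.R, D (algebraMap C.R C.K r) = algebraMap C.R C.K (D' r)) (r : C.R)
    {x : Fin (n + 1) → ℂ} (hx : x ∈ ball 0 c.ρ) :
    c.ψ x (D' r) = ∑ k, c.ψ x (D' (c.t k)) * fderiv ℂ (fun y => c.ψ y r) x (Pi.single k 1) := by
  obtain ⟨D₀, h0⟩ := exists_restrict D fun r => ⟨D' r, hD r⟩
  have hinj : Function.Injective (algebraMap C.R C.K) := IsFractionRing.injective C.R C.K
  have h1 : ∀ r, D' r = D₀ r := fun r => hinj (by rw [← hD, h0])
  simp only [h1]
  exact chain_rule_R hφ c D₀ r hx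

end cone

end Vale.Agent.P271.H965
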