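import Vale.Agent.P271.H965.Integral
import Vale.Agent.P271.H741.Cov

/-!
# P271 / H965: rational functions on the cone which are regular outside the vertex have the
common denominator `h'` (for `n ≥ 1`)
-/

set_option linter.all false

open Vale.Agent.P282.L2 Vale.Agent.P271.Sch Vale.Agent.P271.H741

namespace Vale.Agent.P271.H965

variable {n : ℕ} {C : GCone n}

/-- The denominators of `g`. -/
def den (g : C.K) : Ideal C.R where
  carrier := {u | ∃ r : C.R, algebraMap C.R C.K u * g = algebraMap C.R C.K r}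
  add_mem' := by
    rintro u v ⟨r, hr⟩ ⟨s, hs⟩
    exact ⟨r + s, by rw [map_add, add_mul, hr, hs, map_add]⟩
  zero_mem' := ⟨0, by rw [map_zero, zero_mul]⟩
  smul_mem' := by
    rintro c u ⟨r, hr⟩
    exact ⟨c * r, by rw [smul_eq_mul, map_mul, mul_assoc, hr, map_mul]⟩

theorem mem_den {g : C.K} {u : C.R} :
    u ∈ den g ↔ ∃ r : C.R, algebraMap C.R C.K u * g = algebraMap C.R C.K r := Iff.rfl

/-- A power of every homogeneous element of positive degree is a denominator of a function which is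
regular outside the vertex. -/
theorem exists_pow_mem_den {g : C.K} (hg : ∀ φ : C.Pt, GCone.NV φ → GCone.RegAt φ g) {k : ℕ}
    (hk : 0 < k) {y : C.R} (hy : y ∈ C.A k) : ∃ m : ℕ, y ^ m ∈ den g := by
  haveI := C.finiteType
  haveI : IsJacobsonRing C.R := isJacobsonRing_of_finiteType (A := ℂ)
  have hrad : y ∈ (den g).radical := by
    rw [Ideal.radical_eq_jacobson]
    rw [Ideal.jacobson, Ideal.mem_sInf]
    rintro m ⟨hle, hm⟩
    haveI := hm
    by_contra hym
    obtain ⟨φ, hφ⟩ := exists_point m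
    have h1 : φ y ≠ 0 := by
      intro h0
      apply hym
      rw [← hφ]
      exact h0
    obtain ⟨a, b, hb, hab⟩ := hg φ ⟨k, hk, y, hy, h1⟩
    have h2 : b ∈ den g := ⟨a, by rw [mul_comm]; exact hab⟩
    have h3 : b ∈ RingHom.ker φ := by rw [hφ]; exact hle h2
    exact hb h3
  exact hrad

variable [Algebra (Pol (n + 1)) C.K] [IsScalarTower ℂ (Pol (n + 1)) C.K]
  [FaithfulSMul (Pol (n + 1)) C.K] (V : Cov C)

include V in
theorem integral_of_reg (hn : 1 ≤ n) {g : C.K}
    (hg : ∀ φ : C.Pt, GCone.NV φ → GCone.RegAt φ g) : IsIntegral (Pol (n + 1)) g := by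
  have h01 : (0 : Fin (n + 1)) ≠ Fin.last n := by
    intro h
    have := congrArg Fin.val h
    simp at this
    omega
  obtain ⟨k, r, hr⟩ := exists_pow_mem_den hg V.N_pos (V.z_mem 0)
  obtain ⟨l, s, hs⟩ := exists_pow_mem_den hg V.N_pos (V.z_mem (Fin.last n))
  refine isIntegral_of_two (P := Pol (n + 1)) (a := MvPolynomial.X 0 ^ k)
    (b := MvPolynomial.X (Fin.last n) ^ l) (pow_ne_zero _ (MvPolynomial.X_ne_zero _))
    (pow_ne_zero _ (MvPolynomial.X_ne_zero _)) (isRelPrime_X_pow h01 k l) ?_ ?_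
  · rw [map_pow, V.hz, ← map_pow, hr]
    exact V.int r
  · rw [map_pow, V.hz, ← map_pow, hs]
    exact V.int s

/-- **[FIN]** `h'` is a common denominator of all functions regular outside the vertex. -/
theorem denom_h (hn : 1 ≤ n) {g : C.K} (hg : ∀ φ : C.Pt, GCone.NV φ → GCone.RegAt φ g) :
    ∃ r : C.R, algebraMap C.R C.K V.h' * g = algebraMap C.R C.K r := by
  obtain ⟨f, hf⟩ := V.E.denom g (integral_of_reg V hn hg)
  exact ⟨V.pR f, by rw [← V.hh, hf, V.aeval_pR]⟩

omit [IsScalarTower ℂ (Pol (n + 1)) C.K] in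
include V in
theorem h'_ne_zero : V.h' ≠ 0 := by
  intro h0
  have h1 := V.hh
  rw [h0, map_zero] at h1
  have h2 : Function.Injective (algebraMap (Pol (n + 1)) C.K) := FaithfulSMul.algebraMap_injective _ _
  rw [← map_zero (algebraMap (Pol (n + 1)) C.K)] at h1
  exact V.E.h0 (h2 h1)

include V in
theorem exists_denom (hn : 1 ≤ n) : ∃ b : C.R, b ≠ 0 ∧ ∀ g : C.K,
    (∀ φ : C.Pt, GCone.NV φ → GCone.RegAt φ g) →
      ∃ r : C.R, algebraMap C.R C.K b * g = algebraMap C.R C.K r :=
  ⟨V.h', h'_ne_zero V, fun _ hg => denom_h V hn hg⟩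

end Vale.Agent.P271.H965
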