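import Mathlib

/-!
# P271 / H965: integrality in codimension two

`isIntegral_of_two`: `P` a factorial domain, `a`, `b` relatively prime, `a g` and `b g` integral over
`P` imply `g` integral over `P`.
-/

set_option linter.all false

open Polynomial

namespace Vale.Agent.P271.H965

variable {P K : Type*} [CommRing P] [IsDomain P] [UniqueFactorizationMonoid P] [Field K]
  [Algebra P K] [FaithfulSMul P K]

theorem mem_range_of_two {F : Type*} [Field F] [Algebra P F] [IsFractionRing P F] {a b : P}
    (ha : a ≠ 0) (hb : b ≠ 0) (hab : IsRelPrime a b) {x : F} {N : ℕ}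
    (h1 : x * algebraMap P F a ^ N ∈ Set.range (algebraMap P F))
    (h2 : x * algebraMap P F b ^ N ∈ Set.range (algebraMap P F)) :
    x ∈ Set.range (algebraMap P F) := by
  obtain ⟨u, hu⟩ := h1
  obtain ⟨v, hv⟩ := h2
  have hinj : Function.Injective (algebraMap P F) := IsFractionRing.injective P F
  have h3 : u * b ^ N = v * a ^ N := by
    apply hinj
    rw [map_mul, map_mul, map_pow, map_pow, hu, hv]
    ring
  have h4 : a ^ N ∣ u := by
    have h5 : a ^ N ∣ u * b ^ N := ⟨v, by rw [h3]; ring⟩
    exact (IsRelPrime.pow hab).dvd_of_dvd_mul_right h5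
  obtain ⟨w, rfl⟩ := h4
  refine ⟨w, ?_⟩
  have h6 : algebraMap P F a ^ N ≠ 0 := by
    rw [← map_pow]
    intro h0
    rw [← map_zero (algebraMap P F)] at h0
    exact pow_ne_zero N ha (hinj h0)
  rw [map_mul, map_pow] at hu
  have h7 : algebraMap P F a ^ N * algebraMap P F w = algebraMap P F a ^ N * x := by
    rw [hu]; ring
  exact mul_left_cancel₀ h6 h7

theorem isIntegral_of_two {a b : P} (ha : a ≠ 0) (hb : b ≠ 0) (hab : IsRelPrime a b) {g : K}
    (h1 : IsIntegral P (algebraMap P K a * g)) (h2 : IsIntegral P (algebraMap P K b * g)) :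
    IsIntegral P g := by
  classical
  letI : Algebra (FractionRing P) K := FractionRing.liftAlgebra P K
  haveI : IsScalarTower P (FractionRing P) K := FractionRing.isScalarTower_liftAlgebra P K
  set F := FractionRing P with hF
  have hinj : Function.Injective (algebraMap P F) := IsFractionRing.injective P F
  have hne : ∀ {c : P}, c ≠ 0 → algebraMap P F c ≠ 0 := by
    intro c hc h0
    rw [← map_zero (algebraMap P F)] at h0
    exact hc (hinj h0)
  have hgF : IsIntegral F g := by
    have h3 : IsIntegral F (algebraMap P K a * g) := h1.tower_top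
    have h4 : g = algebraMap F K (algebraMap P F a)⁻¹ * (algebraMap P K a * g) := by
      rw [IsScalarTower.algebraMap_apply P F K a, ← mul_assoc, ← map_mul,
        inv_mul_cancel₀ (hne ha), map_one, one_mul]
    rw [h4]
    exact isIntegral_algebraMap.mul h3
  set μ := minpoly F g with hμ
  have hcoef : ∀ {c : P}, c ≠ 0 → IsIntegral P (algebraMap P K c * g) → ∀ i,
      μ.coeff i * algebraMap P F c ^ (μ.natDegree - i) ∈ Set.range (algebraMap P F) := by
    intro c hc hint i
    have h3 : minpoly F (algebraMap P F c • g) = μ.scaleRoots (algebraMap P F c) :=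
      IsIntegrallyClosed.minpoly_smul (hne hc) hgF
    have h4 : algebraMap P F c • g = algebraMap P K c * g := by
      rw [Algebra.smul_def, ← IsScalarTower.algebraMap_apply]
    rw [h4, minpoly.isIntegrallyClosed_eq_field_fractions' F hint] at h3
    have h5 := congrArg (fun q => q.coeff i) h3
    simp only [coeff_map, coeff_scaleRoots] at h5
    exact ⟨_, h5⟩
  have hmem : ∀ i, μ.coeff i ∈ Set.range (algebraMap P F) := fun i =>
    mem_range_of_two ha hb hab (hcoef ha h1 i) (hcoef hb h2 i)
  have hlift : μ ∈ lifts (algebraMap P F) := by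
    rw [lifts_iff_coeff_lifts]
    exact hmem
  obtain ⟨q, hq, -, hmon⟩ := lifts_and_natDegree_eq_and_monic hlift (minpoly.monic hgF)
  refine ⟨q, hmon, ?_⟩
  have h6 : aeval g (q.map (algebraMap P F)) = 0 := by rw [hq, minpoly.aeval]
  rw [aeval_map_algebraMap] at h6
  exact h6

theorem X_ne_zero' {σ : Type*} (i : σ) : (MvPolynomial.X i : MvPolynomial σ ℂ) ≠ 0 :=
  MvPolynomial.X_ne_zero i

theorem isRelPrime_X_pow {σ : Type*} {i j : σ} (hij : i ≠ j) (k l : ℕ) :
    IsRelPrime ((MvPolynomial.X i : MvPolynomial σ ℂ) ^ k) (MvPolynomial.X j ^ l) := by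
  have h1 : IsRelPrime (MvPolynomial.X i : MvPolynomial σ ℂ) (MvPolynomial.X j) := by
    have hi : Irreducible (MvPolynomial.X i : MvPolynomial σ ℂ) := MvPolynomial.X_prime.irreducible
    rw [hi.isRelPrime_iff_not_dvd, MvPolynomial.X_dvd_X]
    exact hij
  exact h1.pow

/-- Points of an affine algebra and maximal ideals. -/
theorem exists_point {R : Type*} [CommRing R] [Algebra ℂ R] [Algebra.FiniteType ℂ R]
    (m : Ideal R) [hm : m.IsMaximal] : ∃ φ : R →ₐ[ℂ] ℂ, RingHom.ker φ = m := by
  letI : Field (R ⧸ m) := Ideal.Quotient.field m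
  haveI : Algebra.FiniteType ℂ (R ⧸ m) := inferInstance
  haveI : Module.Finite ℂ (R ⧸ m) := finite_of_finite_type_of_isJacobsonRing ℂ (R ⧸ m)
  have hbij : Function.Bijective (algebraMap ℂ (R ⧸ m)) :=
    IsAlgClosed.algebraMap_bijective_of_isIntegral
  let e : ℂ ≃ₐ[ℂ] (R ⧸ m) := AlgEquiv.ofBijective (Algebra.ofId ℂ (R ⧸ m)) hbij
  refine ⟨e.symm.toAlgHom.comp (Ideal.Quotient.mkₐ ℂ m), ?_⟩
  ext x
  rw [RingHom.mem_ker]
  show e.symm (Ideal.Quotient.mk m x) = 0 ↔ x ∈ m
  rw [EmbeddingLike.map_eq_zero_iff]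
  exact Ideal.Quotient.eq_zero_iff_mem

end Vale.Agent.P271.H965
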