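import Vale.Agent.P271.H741.CoreDefs
import Vale.Agent.P271.H965.Chain
import Vale.Agent.P271.GLOB.Cond

/-!
# P271 / H965: the Jacobian of `z` in a chart bounds `v ^ (n + 1)` from above
-/

set_option linter.all false

open Filter Topology Metric

namespace Vale.Agent.P271.H965

open Vale.Agent.P282.L2 Vale.Agent.P271.Sch Vale.Agent.P271.H741 Vale.Agent.P271.Glob

variable {n : ℕ} {C : GCone n} [Algebra (Pol (n + 1)) C.K]

theorem jc_bound (V : Cov C) {φ : C.Pt} (hφ : GCone.NV φ) (c : Chart φ (n + 1))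
    {D : Fin (n + 1) → Derivation ℂ C.K C.K} (hD : ∀ k, Glob.PresR (D k)) {v : C.R}
    (hDz : ∀ i j, D i (algebraMap C.R C.K (V.z j)) = if i = j then algebraMap C.R C.K v else 0) :
    ∃ B : ℝ, ∀ᶠ x in 𝓝 (0 : Fin (n + 1) → ℂ), ‖c.ψ x (v ^ (n + 1))‖ ≤ B * ‖V.jc c x‖ := by
  classical
  choose D' hD' using hD
  have hinj : Function.Injective (algebraMap C.R C.K) := IsFractionRing.injective C.R C.K
  have hz : ∀ i j, D' i (V.z j) = if i = j then v else 0 := by
    intro i j
    apply hinj
    rw [← hD', hDz]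
    split_ifs <;> simp
  -- the matrix of the derivations in the chart
  set A : (Fin (n + 1) → ℂ) → Matrix (Fin (n + 1)) (Fin (n + 1)) ℂ :=
    fun x => Matrix.of fun i k => c.ψ x (D' i (c.t k)) with hA
  set J : (Fin (n + 1) → ℂ) → Matrix (Fin (n + 1)) (Fin (n + 1)) ℂ :=
    fun x => Matrix.of fun i j => fderiv ℂ (fun y => c.ψ y (V.z i)) x (Pi.single j 1) with hJ
  have key : ∀ x ∈ ball (0 : Fin (n + 1) → ℂ) c.ρ,
      c.ψ x (v ^ (n + 1)) = (A x).det * V.jc c x := by
    intro x hx
    have h1 : A x * (J x).transpose = Matrix.diagonal fun _ => c.ψ x v := by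
      ext i j
      rw [Matrix.mul_apply, Matrix.diagonal_apply]
      have h2 := chain_rule_K hφ c (D i) (D' i) (hD' i) (V.z j) hx
      have h3 : ∑ k, A x i k * (J x).transpose k j =
          ∑ k, c.ψ x (D' i (c.t k)) * fderiv ℂ (fun y => c.ψ y (V.z j)) x (Pi.single k 1) := rfl
      rw [h3, ← h2, hz]
      split_ifs <;> simp
    have h4 := congrArg Matrix.det h1
    rw [Matrix.det_mul, Matrix.det_transpose, Matrix.det_diagonal, Finset.prod_const,
      Finset.card_univ, Fintype.card_fin] at h4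
    rw [map_pow]
    exact h4.symm
  have hcont : ContinuousAt (fun x => (A x).det) 0 := by
    have h1 : ContinuousAt A 0 := by
      refine continuousAt_pi.2 fun i => continuousAt_pi.2 fun k => ?_
      exact (c.holo (D' i (c.t k)) 0 (mem_ball_self c.ρ_pos)).continuousAt
    exact (Continuous.matrix_det continuous_id).continuousAt.comp h1
  refine ⟨‖(A 0).det‖ + 1, ?_⟩
  have h5 : ∀ᶠ x in 𝓝 (0 : Fin (n + 1) → ℂ), ‖(A x).det‖ < ‖(A 0).det‖ + 1 :=
    hcont.norm.eventually_lt continuousAt_const (by linarith)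
  filter_upwards [h5, isOpen_ball.mem_nhds (mem_ball_self c.ρ_pos)] with x hx1 hx2
  rw [key x hx2, norm_mul]
  exact mul_le_mul_of_nonneg_right hx1.le (norm_nonneg _)

end Vale.Agent.P271.H965
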